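import Vale.Agent.P057DI.Mom
import Vale.Agent.P057LU.Gdm
import Vale.Agent.P057MD.Root
import Vale.Agent.P057MD.Fin
import Vale.Agent.P057RA.Root
import Vale.Agent.P057RC.Root
import Vale.Agent.P057NA.Nar

/-!
The model and the moment bound survive the steps of a chain.
-/

set_option linter.all false

open Matrix Finset Real
open Vale.Agent.P267.H775 Vale.Agent.P057G Vale.Agent.P057PC Vale.Agent.P057TP Vale.Agent.P057SG
open Vale.Agent.P057DP Vale.Agent.P057MA Vale.Agent.P057RC Vale.Agent.P057LU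
open Vale.Agent.P057T1 (ind ind_pos ind_neg abs_ind)
open Vale.Agent.P057AS (gm GDC)

namespace Vale.Agent.P057DI

noncomputable section

open Classical

variable {T : Tow} {n p s : ℕ} {R : Type} {N : ℝ} [Fintype R] [DecidableEq R]
  {Z : Sys T (Uv n p R) Unit}

/-- the scales of the narrowed root system -/
def sa (lam γ a : ℝ) (A : Finset (Vt n p R)) (o : Option Empty) : ℝ :=
  (if (A.biUnion lc).Nonempty then a ^ 2 else 1) * sc lam γ A o

theorem rt_sa (lam γ a : ℝ) (D : Fz T n p R → ℤ) :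
    rt Z (sa lam γ a) D = nar (root Z lam γ D) a := by
  have : bk (sG T cV Empty (n + 2) (sa lam γ a)) Liv = a ^ 2 • (root Z lam γ D).G := by
    ext i j
    change (if (i.1.fc.biUnion lc).Nonempty then a ^ 2 else 1) * sc lam γ i.1.fc i.1.bs *
      Gam T cV Empty (n + 2) i.1 j.1 = a ^ 2 * (sc lam γ i.1.fc i.1.bs * Gam T cV Empty (n + 2) i.1 j.1)
    rw [if_pos (show (i.1.fc.biUnion lc).Nonempty from i.2), mul_assoc]
  rw [rt, this]
  rfl

theorem mom_rt (hT : T.Ok s N) (hZ : Z.Ok) {lam γ a K Λ η : ℝ} (hl : 1 ≤ lam) (hγ : 0 < γ)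
    (a0 : 0 < a) (a1 : a ≤ 1) (hK : lam ^ s ≤ K) {k i : ℕ} (hL : T.tw.LF (n + 1) k Λ η)
    (hk : Fintype.card (Vt n p R) + i ≤ k)
    (hΛ : (2 * i + 2) * (2 * (K + i * (2 * 8 ^ (2 * Fintype.card (Vt n p R))))) ≤ Λ) :
    ∃ B ≤ 1 + η, HasSum (fun D => wD Z D * ((∑' x, (nar (root Z lam γ D) a).wt (rB T n p R) x *
      gm Z γ (rp (rmap D (toR x))) ^ i) / vl (nar (root Z lam γ D) a).G (rB T n p R))) B := by
  have l0 : 0 < lam := by linarith
  have h0 : ∀ A o, 0 < sa (n := n) (p := p) (R := R) lam γ a A o := fun A o =>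
    mul_pos (by split_ifs <;> positivity) (sc_pos l0 hγ A o)
  obtain ⟨B, hB⟩ := gm_bdd (cl := (cU : Uv n p R → _)) (m := n + 2) hT hZ hγ
  have h := mom_cy (J := Fin i) (K := K) hT hZ hγ h0 (fun l hl' => ?_) hL (by simpa using hk)
    (by simpa using hΛ) (lt_of_lt_of_le (by positivity) hK)
  · refine ⟨_, h, ?_⟩
    have := conv' (f := fun z => gm Z γ (rz z) ^ i) (B := B ^ i) hT hZ h0
      (fun l => by rw [sa, if_neg (show ¬ (l.1.fc.biUnion lc).Nonempty from l.2), sc_frz lam γ l.2, one_mul]) fun z => by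
        rw [abs_of_nonneg (pow_nonneg (hB _).1 _)]; exact pow_le_pow_left₀ (hB _).1 (hB _).2 _
    simpa only [rt_sa, nw, rp_rz, Fintype.card_fin, div_mul_eq_mul_div, tsum_div_const] using this
  · refine (mul_le_of_le_one_left (sc_pos l0 hγ _ _).le ?_).trans (le_trans ?_ hK)
    · split_ifs
      exacts [pow_le_one₀ a0.le a1, le_rfl]
    · exact (prod_le_prod (g := fun _ => lam) (fun v _ => (sv_pos l0 hγ v).le) fun v hv => by
        rcases v with _ | v | v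
        exacts [absurd hv (mem_q.1 hl'), le_rfl, hl]).trans
        ((prod_const _).trans_le (pow_le_pow_right₀ hl (l.card_le.trans (hT.le _))))

theorem num1 {X W : ℝ} {i V : ℕ} (x1 : 0 ≤ X) (x3 : X + 12 ≤ X ^ 3) (hi : (i : ℝ) ≤ X)
    (hV : (V : ℝ) ≤ X ^ 3) (hW : 17 * X ^ 3 ≤ W) :
    (2 * i + 2) * (2 * (exp (X ^ 3) + i * (2 * 8 ^ (2 * V)))) ≤ exp W := by
  have b0 : X + 12 ≤ exp (X ^ 3) := by linarith [add_one_le_exp (X ^ 3)]
  have b2 : (8 : ℝ) ^ (2 * V) ≤ exp (X ^ 3) ^ 14 :=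
    (pow_le_pow_left₀ (by norm_num) (by linarith [add_one_le_exp (7 : ℝ)]) _ :
      _ ≤ exp 7 ^ _).trans (by
        rw [← exp_nat_mul, ← exp_nat_mul]; exact exp_le_exp.2 (by push_cast; linarith))
  have b3 : exp (X ^ 3) ^ 16 * exp (X ^ 3) ≤ exp W := by
    rw [← pow_succ, ← exp_nat_mul]; exact exp_le_exp.2 (by push_cast; linarith)
  generalize exp (X ^ 3) = u at *
  have u0 : 0 ≤ u := by linarith
  have b4 : u ≤ u * u ^ 14 := le_mul_of_one_le_right (by linarith) (one_le_pow₀ (by linarith))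
  refine le_trans (?_ : _ ≤ 2 * u * (2 * (u * u ^ 14 + u * (2 * u ^ 14)))) (le_trans ?_ b3)
  · gcongr <;> linarith
  · linarith [mul_le_mul_of_nonneg_left (by linarith : 12 ≤ u) (pow_nonneg (by linarith : 0 ≤ u) 16)]

theorem card_lv (hT : T.Ok s N) {X Q : ℝ} (hd : ∀ e, T.dm e ≤ Q) (x1 : s + 2 ≤ X) (xP : X ≤ Q)
    (cv : (Fintype.card (Vt n p R) : ℝ) ≤ X ^ 3) :
    (Fintype.card (Lv T n p R) : ℝ) + X ≤ Q ^ (4 * s + 9) := by
  have s0 := Nat.cast_nonneg (α := ℝ) s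
  have q0 : 0 ≤ Q := by linarith
  have q3 : Q ≤ Q ^ 3 := le_self_pow₀ (by linarith) (by omega)
  have a1 := P057NA.card_Lb (cl := (cV : Vt n p R → _)) (S := Empty) (m := n + 2) hT
    (X := Q ^ 3) (fun e => (hd e).trans q3)
    (by simpa using cv.trans (pow_le_pow_left₀ (by linarith) xP 3))
  have a2 : (Fintype.card (Lv T n p R) : ℝ) ≤ Fintype.card (Lr T n p R) :=
    Nat.cast_le.2 (Fintype.card_subtype_le _)
  have a3 : (s + 1) * Q ^ 3 * (Q ^ 3 + 1) ^ (s + 1) ≤ Q * Q ^ 3 * (Q ^ 4) ^ (s + 1) := by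
    gcongr
    · linarith
    · nlinarith
  have a4 : Q ≤ Q ^ (4 * s + 8) := le_self_pow₀ (by linarith) (by omega)
  rw [← pow_mul, ← pow_succ', ← pow_add, show 3 + 1 + 4 * (s + 1) = 4 * s + 8 by ring] at a3
  rw [pow_succ]
  nlinarith

theorem bad_D (hT : T.Ok s N) (hZ : Z.Ok) {lam γ Λ X Y C t : ℝ} {j : ℕ} (l1 : 1 ≤ lam) (γ1 : 1 ≤ γ)
    (lX : lam ≤ exp X) (γX : γ ≤ exp X) (x0 : 0 ≤ X) (Λ1 : 1 ≤ Λ)
    (cl : (Fintype.card (Lv T n p R) : ℝ) + X ≤ C) (cj : (j : ℝ) * 2 ^ j * C ≤ Λ ^ 2)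
    (D : Fz T n p R → ℤ) :
    ind (¬ Gm Z γ X C j D lam Λ t (4 * (exp 1 * 2 ^ 2 ^ j) * exp Y) (fun w => gm Z γ w ^ 2) j
      (rootS Z lam γ D) id) ≤ exp (-Y) / 4 *
      ((∑' x, (nar (root Z lam γ D) (sca Λ j)).wt (rB T n p R) x * gm Z γ (rp (rmap D (toR x))) ^ 0) /
        vl (nar (root Z lam γ D) (sca Λ j)).G (rB T n p R) +
      (∑' x, (nar (root Z lam γ D) (sca Λ j)).wt (rB T n p R) x *
        gm Z γ (rp (rmap D (toR x))) ^ (2 * 2 ^ j)) /
          vl (nar (root Z lam γ D) (sca Λ j)).G (rB T n p R)) := by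
  have γ0 : 0 < γ := by linarith
  obtain ⟨B, hB⟩ := gm_bdd (cl := (cU : Uv n p R → _)) (m := n + 2) hT hZ γ0
  have ok := P057RA.ok_root (D := D) hT hZ (by linarith : 0 < lam) γ0
  have on := ok_nar ok (sca_pos Λ j).ne'
  have v0 := vl_pos ok.pd (rB T n p R)
  have v1 := vl_pos on.pd (rB T n p R)
  have eY := exp_pos Y
  have v2 : vl (nar (root Z lam γ D) (sca Λ j)).G (rB T n p R) ≤
      exp 1 * vl (root Z lam γ D).G (rB T n p R) := by
    change vl (sca Λ j ^ 2 • _) _ ≤ _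
    rw [vl_smul (pow_pos (sca_pos Λ j) 2), sqrt_sq (sca_pos Λ j).le, sca_pow]
    refine mul_le_mul_of_nonneg_right (exp_le_exp.2 ((div_le_one (by positivity)).2 ?_)) v0.le
    have : ((rB T n p R).card : ℝ) ≤ Fintype.card (Lv T n p R) := Nat.cast_le.2 (card_le_univ _)
    refine le_trans ?_ cj
    rw [mul_comm, mul_assoc]
    exact mul_le_mul_of_nonneg_left ((by linarith : _ ≤ C).trans (le_mul_of_one_le_left
      (le_trans (by positivity) cl) (one_le_pow₀ one_le_two))) (Nat.cast_nonneg j)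
  have sm : ∀ i : ℕ, Summable fun x => (nar (root Z lam γ D) (sca Λ j)).wt (rB T n p R) x *
      gm Z γ (rp (rmap D (toR x))) ^ i := fun i => on.summable_re _ (C := B ^ i) fun z => by
    rw [abs_of_nonneg (pow_nonneg (hB _).1 _)]; exact pow_le_pow_left₀ (hB _).1 (hB _).2 _
  have sp : ∀ i : ℕ, 0 ≤ ∑' x, (nar (root Z lam γ D) (sca Λ j)).wt (rB T n p R) x *
      gm Z γ (rp (rmap D (toR x))) ^ i := fun i =>
    tsum_nonneg fun x => mul_nonneg (MS.wt_nonneg _ _) (pow_nonneg (hB _).1 _)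
  rw [← add_div]
  by_cases hG : Gm Z γ X C j D lam Λ t (4 * (exp 1 * 2 ^ 2 ^ j) * exp Y) (fun w => gm Z γ w ^ 2) j
    (rootS Z lam γ D) id
  · rw [ind_neg (not_not.2 hG)]
    exact mul_nonneg (by positivity) (div_nonneg (add_nonneg (sp _) (sp _)) v1.le)
  · have k1 := lt_of_not_ge (mt (gm_root P057MD.mroot ok l1 lX γ1 γX cl) hG)
    rw [fce_root] at k1
    have k2 := k1.trans_le (hasSum_le (fun x => ?_) (on.summable_re _ (C := (1 + B ^ 2) ^ 2 ^ j)
      fun z => ?_).hasSum (((sm 0).hasSum.add (sm (2 * 2 ^ j)).hasSum).mul_left (2 ^ 2 ^ j)))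
    · rw [ind_pos hG, exp_neg, ← mul_div_assoc, le_div_iff₀ v1, one_mul, div_mul_eq_mul_div,
        le_div_iff₀ four_pos, le_inv_mul_iff₀ eY]
      refine le_of_mul_le_mul_left (le_trans ?_ k2.le) (by positivity)
      linarith [mul_le_mul_of_nonneg_left v2 (by positivity : 0 ≤ 4 * (2 : ℝ) ^ 2 ^ j * exp Y)]
    · rw [← mul_add, mul_left_comm, pow_mul, pow_zero]
      refine mul_le_mul_of_nonneg_left ((add_pow_le zero_le_one (sq_nonneg _) _).trans ?_)
        (MS.wt_nonneg _ _)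
      rw [one_pow]
      exact mul_le_mul_of_nonneg_right (pow_le_pow_right₀ one_le_two (Nat.sub_le _ _))
        (by positivity)
    · rw [abs_of_nonneg (by positivity)]
      exact pow_le_pow_left₀ (by positivity)
        (add_le_add le_rfl (pow_le_pow_left₀ (hB _).1 (hB _).2 _)) _

theorem num2 {X Y W : ℝ} {j : ℕ} (x1 : 5 ≤ Y) (YX : Y ≤ X) (hj : (j : ℝ) ≤ X) (hm : 2 ^ j ≤ X)
    (hW : 3 * (X * X) ≤ W) :
    (2 * exp 4 * exp Y) ^ j * (4 * (exp 1 * 2 ^ 2 ^ j) * exp Y) ≤ exp W := by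
  have t2 : (2 : ℝ) ≤ exp 1 := by linarith [add_one_le_exp (1 : ℝ)]
  have t4 : (4 : ℝ) ≤ exp 3 := by linarith [add_one_le_exp (3 : ℝ)]
  refine le_trans (?_ : _ ≤ (exp 1 * exp 4 * exp Y) ^ j *
    (exp 3 * (exp 1 * exp 1 ^ 2 ^ j) * exp Y)) ?_
  · gcongr
  · simp only [← exp_add, ← exp_nat_mul]
    refine exp_le_exp.2 ?_
    push_cast
    nlinarith [mul_le_mul hj (by linarith : 1 + 4 + Y ≤ 2 * X) (by linarith) (by linarith)]

theorem gdc (s : ℕ) : GDC s := by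
  intro j
  have z0 := Nat.zero_le (2 ^ (j + 1))
  refine ⟨2 ^ (j + 1) + j + 4 * s + 100, by omega, ?_⟩
  intro N P T n p R _ _ Z f θ γ lam Λ Y Y' h cY YX cY' hΛ hγ hl γX lX
  have x0 := h.lad.big (n + 2)
  have cv := card_vt h (by omega)
  have hL := h.lf
  have hT := h.ok
  have hZ := h.zok
  have an := antitone_nat_of_succ_le h.lad.anti
  have xP : P (n + 2) ≤ P 0 := an (Nat.zero_le _)
  have hc : 4 * s + 100 ≤ 2 ^ (j + 1) + j + 4 * s + 100 := by omega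
  have hd : ∀ e, T.dm e ≤ P 0 := fun e => (h.cx e).1.trans (an (Nat.zero_le e))
  clear h an
  push_cast at x0 cY cY'
  generalize 2 ^ (j + 1) + j + 4 * s + 100 = c at *
  generalize P (n + 2) = X at *
  generalize P 0 = Q at *
  have s0 := Nat.cast_nonneg (α := ℝ) s
  have j0 := Nat.cast_nonneg (α := ℝ) j
  have m0 : (0 : ℝ) < 2 ^ j := by positivity
  rw [pow_succ'] at x0 cY cY'
  have x1 : (100 : ℝ) ≤ X := by linarith
  have q1 : 1 ≤ Q := by linarith
  have q2 := one_le_pow₀ (n := c) q1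
  have Λ1 := q2.trans hΛ
  have γ1 := q2.trans hγ
  have l1 := q2.trans hl
  have γ0 : 0 < γ := by linarith
  have x2 : 100 * X ≤ X * X := mul_le_mul_of_nonneg_right x1 (by linarith)
  have x3 : 100 * (X * X) ≤ X ^ 3 :=
    (mul_le_mul_of_nonneg_right x1 (mul_self_nonneg X)).trans_eq (by ring)
  have x4 : 100 * X ^ 3 ≤ X ^ c := (mul_le_mul_of_nonneg_right x1 (by positivity)).trans (by
    rw [← pow_succ']; exact pow_le_pow_right₀ (by linarith) (by omega))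
  have cl := card_lv hT hd (by linarith) xP cv
  have cj : (j : ℝ) * 2 ^ j * Q ^ (4 * s + 9) ≤ Λ ^ 2 := by
    refine le_trans (?_ : _ ≤ Q * Q * Q ^ (4 * s + 9)) ?_
    · gcongr <;> linarith
    · rw [mul_assoc, ← pow_succ', ← pow_succ']
      exact (pow_le_pow_right₀ q1 (by omega)).trans (hΛ.trans (le_self_pow₀ Λ1 (by omega)))
  obtain ⟨B, hB⟩ := gm_bdd (cl := (cU : Uv n p R → _)) (m := n + 2) hT hZ γ0
  have g0 : ∀ w : Pg T n p R → ℤ, 0 ≤ gm Z γ w ^ 2 := fun w => sq_nonneg _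
  have gC : ∀ w : Pg T n p R → ℤ, gm Z γ w ^ 2 ≤ B ^ 2 := fun w =>
    pow_le_pow_left₀ (hB w).1 (hB w).2 _
  have e1 : 1 ≤ exp Y := one_le_exp (by linarith)
  have e2 : 1 ≤ exp 1 * 2 ^ 2 ^ j := one_le_mul_of_one_le_of_one_le (one_le_exp zero_le_one)
    (one_le_pow₀ one_le_two)
  have e4 : (1 : ℝ) ≤ 2 * exp 4 := by linarith [one_le_exp (by norm_num : (0 : ℝ) ≤ 4)]
  refine ⟨fun D => Gm Z γ X (Q ^ (4 * s + 9)) j D lam Λ (2 * exp 4 * exp Y)
    (4 * (exp 1 * 2 ^ 2 ^ j) * exp Y) fun w => gm Z γ w ^ 2, fun D => gm_clos P057MD.mstep hT hZ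
      Λ1 (by linarith) (by linarith) g0 gC cj (one_le_mul_of_one_le_of_one_le e4 e1)
      (by linarith [one_le_mul_of_one_le_of_one_le e2 e1]) ?_, ?_, fun D X' φ hG => ?_⟩
  · rw [mul_left_comm, ← exp_add (-Y), neg_add_cancel, exp_zero, mul_one]
  · have key := fun (i : ℕ) (hi : (i : ℝ) ≤ X) => mom_rt (i := i) (K := exp (X ^ 3)) hT hZ
      l1 γ0 (sca_pos Λ j) (sca_le Λ j) ((pow_le_pow_left₀ (by linarith) lX s).trans (by
        rw [← exp_nat_mul]
        exact exp_le_exp.2 ((mul_le_mul_of_nonneg_right (by linarith : _ ≤ X) (by linarith)).trans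
          (by linarith)))) hL (Nat.le_floor (by push_cast; linarith))
      (num1 (by linarith) (by linarith) hi cv (by linarith))
    obtain ⟨B0, b0, h0⟩ := key 0 (by push_cast; linarith)
    obtain ⟨B1, b1, h1⟩ := key (2 * 2 ^ j) (by push_cast; linarith)
    have η1 : exp (-X ^ c) ≤ 1 := exp_le_one_iff.2 (by linarith)
    refine (hasSum_le (fun D => ?_) (summable_mul_real (summable_wD hT hZ) (wD_nonneg Z)
      fun _ => abs_ind _).hasSum ((h0.add h1).mul_left (exp (-Y) / 4))).trans ?_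
    · exact (mul_le_mul_of_nonneg_left (bad_D hT hZ l1 γ1 lX γX (by linarith) Λ1 cl cj D)
        (wD_nonneg Z D)).trans_eq (by ring)
    · linarith [mul_le_mul_of_nonneg_left (by linarith : B0 + B1 ≤ 4) (exp_pos (-Y)).le]
  · obtain ⟨-, i, M, k1, k2, k3⟩ := gm_out g0 gC hG
    obtain ⟨q, ⟨-, ok, -⟩, -⟩ := hG
    exact ⟨i, M, k1, k2, k3.trans (mul_le_mul_of_nonneg_right (num2 (by linarith) YX (by linarith)
      (by linarith) (by linarith)) (vl_pos ok.pd _).le)⟩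

end

end Vale.Agent.P057DI
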