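import Vale.Agent.P057DI.Sig
import Vale.Agent.P057RC.Shear
import Vale.Agent.P057AS.Plan
import Vale.Agent.P057DR.Drop
import Vale.Agent.P057PL.Pull
import Vale.Agent.P057CO.Xt

/-!
Moments of the mass through the special vertex over the root systems.
-/

set_option linter.all false

open Matrix Finset Real
open Vale.Agent.P267.H775 Vale.Agent.P057G Vale.Agent.P057PC Vale.Agent.P057TP Vale.Agent.P057SG
open Vale.Agent.P057GH Vale.Agent.P057DP Vale.Agent.P057RH Vale.Agent.P057EN Vale.Agent.P057MA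
open Vale.Agent.P057RC Vale.Agent.P057DR
open Vale.Agent.P057ST (mR toR_mulVec)
open Vale.Agent.P057AS (gm)
open Vale.Agent.P057SY (fo)

namespace Vale.Agent.P057DI

noncomputable section

open Classical

section fib

variable {T : Tow} {C U : Type} {cl : U → C} {m s : ℕ} {N : ℝ} [Fintype U] [DecidableEq U]
  {Z : Sys T U Unit}

theorem pr_pu (hZ : Z.Ok) {x x' : Lb T cl Unit m → ℝ} (h : ∀ k, k.Pure → x k = x' k)
    {l : Lb T cl Unit m} (hl : l.Pure) : Z.pr cl m x l = Z.pr cl m x' l := by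
  rw [Sys.pr, Sys.pr, Fam.alt_eq, Fam.alt_eq, ← sub_eq_zero, ← altL_sub, altL_eq_sum]
  refine sum_eq_zero fun μ hμ => if_neg fun e => MvPolynomial.mem_support_iff.1 hμ ?_
  refine P057PL.coeff_of_dvd (P057PL.dvd_eval (P057PL.lift_dvd
    (fun k => (_root_.em k.Pure).imp (h k) (P057PL.mon_dvd2 k)) _) _) ?_
  have h1 := card_spW_le μ
  rw [deg_of_hom ((JH.eval (hZ.fam.hom l.bs l.cd) (lift_hom x _)).sub
    (JH.eval (hZ.fam.hom l.bs l.cd) (lift_hom x' _))) (MvPolynomial.mem_support_iff.1 hμ), e] at h1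
  rcases hl with k | k
  · have := l.card_eq k; omega
  · omega

theorem qq_part (hT : T.Ok s N) {D : Lb T cl Unit m → Prop} [DecidablePred D]
    (h : ∀ l l' : Lb T cl Unit m, l.fc = l'.fc → l.bs = l'.bs → T.lv l.cd = T.lv l'.cd → D l → D l')
    (u : Lb T cl Unit m → ℝ) : qq (bk (Gam T cl Unit m) D) (rs D u) ≤ qq (Gam T cl Unit m) u :=
  P057TE.qq_rs_le (pd_Gam hT.pd _ _ _) (fun i j hi hj => by_contra fun e => hj (h i j (Gam_ne e).1
    (Gam_ne e).2 (by_contra fun k => e (by simp only [Gam, of_apply, hT.blk _ _ k, ite_self])) hi)) u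

/-- the labels through the special vertex -/
abbrev SL (T : Tow) (cl : U → C) (m : ℕ) : Type := LS T cl m ⊕ NP T cl m

def lb : SL T cl m → Lb T cl Unit m := Sum.elim Subtype.val Subtype.val

theorem lb_bs (i : SL T cl m) : (lb i).bs = some () := by
  have : (lb i).bs ≠ none := by
    rcases i with i | i
    exacts [i.2.2, fun e => i.2 (Or.inl e)]
  exact Option.ne_none_iff_exists'.1 this |>.elim fun _ h => h

theorem lb_inj : (lb : SL T cl m → _).Injective := by
  rintro (i | i) (j | j) e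
  · exact congrArg _ (Subtype.ext e)
  · exact (j.2 ((show i.1 = j.1 from e) ▸ i.2.1)).elim
  · exact (i.2 ((show i.1 = j.1 from e) ▸ j.2.1)).elim
  · exact congrArg _ (Subtype.ext e)

theorem gl3_self {R : Type} (u : Lb T cl Unit m → R) :
    gl3 (fun l => u l.1) (fun l => u l.1) (fun l => u l.1) = u := funext fun l => by
  unfold gl3; split_ifs <;> rfl

/-- their centres -/
def cs (Z : Sys T U Unit) (w : PW T cl m → ℤ) (x : SL T cl m → ℤ) (i : SL T cl m) : ℝ :=
  Z.pr cl m (toR (gl3 w (x ∘ Sum.inl) (x ∘ Sum.inr))) (lb i)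

/-- their Gram matrix -/
def As (T : Tow) (cl : U → C) (m : ℕ) (γ : ℝ) : Matrix (SL T cl m) (SL T cl m) ℝ :=
  fromBlocks ((γ / (1 + γ)) • bk (Gam T cl Unit m) Li) 0 0 (bk (Gam T cl Unit m) No)

variable (hT : T.Ok s N) (hZ : Z.Ok) {γ : ℝ} (hγ : 0 < γ)
include hT

include hZ in
theorem tri_cs (w : PW T cl m → ℤ) : Tri (fun i => T.lv (lb i).cd) (cs Z w) :=
  fun _ _ _ k => pr_congr hT hZ fun l _ _ h => congrArg Int.cast
    (gl3_congr (fun _ => rfl) (fun e => k (Sum.inl ⟨l, e⟩) h) fun e => k (Sum.inr ⟨l, e⟩) h)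

include hγ

theorem pd_As : (As T cl m γ).PosDef :=
  posDef_blocks ((posDef_bk (pd_Gam hT.pd _ _ _) _).smul (by positivity))
    (posDef_bk (pd_Gam hT.pd _ _ _) _)

theorem qq_As (u : Lb T cl Unit m → ℝ) :
    qq (As T cl m γ) (u ∘ lb) ≤ 2 * qq (Gam T cl Unit m) u := by
  have h1 := qq_part hT (D := Li) (fun l l' a b c h => by
    unfold Li Lb.Pure Pu at h ⊢; rwa [← a, ← b, ← c]) u
  have h2 := qq_part hT (D := No) (fun l l' a b c h => by
    unfold No Lb.Pure at h ⊢; rwa [← a, ← b, ← c]) u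
  have h3 := qq_nonneg (posDef_bk (pd_Gam hT.pd cl Unit m) Li).posSemidef (rs Li u)
  have h4 : γ / (1 + γ) ≤ 1 := (div_le_one (by positivity)).2 (by linarith)
  rw [As, qq_blocks, qq_smul_mat]
  change _ * qq _ (rs Li u) + qq _ (rs No u) ≤ _
  nlinarith

include hZ

theorem gm_ms (w : PW T cl m → ℤ) : gm Z γ w = ms (As T cl m γ) (cs Z w) := by
  have h := P057CO.Ex_blocks ((posDef_bk (pd_Gam hT.pd cl Unit m) Li).smul
    (show 0 < γ / (1 + γ) by positivity)) (posDef_bk (pd_Gam hT.pd cl Unit m) No) (tri_cs hT hZ w)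
    (p1 := fun z => cL Z w (toR z)) (p2 := fun z y l => Z.pr cl m (toR (gl3 w z y)) l)
    (fun z u => funext fun i => ?_) (f := fun _ => 1) (C := 1) (by simp)
  · simp only [Ex_one, Ex_real] at h
    refine Eq.trans ?_ (Complex.ofReal_injective h).symm
    simp only [gm, P057SG.ch, mul_one]
    rfl
  · rcases i with i | i
    · refine pr_pu hZ (fun k hk => ?_) i.2.1
      rw [toR_gl3]
      exact gl3_congr (fun _ => rfl) (fun _ => rfl) fun e => (e hk).elim
    · rfl

theorem gm_bdd : ∃ B, ∀ w : PW T cl m → ℤ, 0 ≤ gm Z γ w ∧ gm Z γ w ≤ B :=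
  (ms_bdd (pd_As (cl := cl) (m := m) hT hγ)).imp fun _ h w => by
    rw [gm_ms hT hZ hγ]
    exact ⟨ms_nonneg _ _, h _ _ (tri_cs hT hZ w)⟩

end fib

variable {T : Tow} {n p s : ℕ} {R : Type} {N : ℝ} [Fintype R] [DecidableEq R]
  {Z : Sys T (Uv n p R) Unit}

/-! ### the joint law with arbitrary scales -/

section conv

variable (Z) (σ : Finset (Vt n p R) → Option Empty → ℝ)

def cy : MS (Vt n p R ⊕ Empty) (Lr T n p R) := cub (pbo Z jk Empty) cV (n + 2) σ 0

def rt (D : Fz T n p R → ℤ) : MS (Option (Fin n)) (Lv T n p R) :=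
  (root Z 1 1 D).gram (bk (sG T cV Empty (n + 2) σ) Liv)

variable {Z σ}

theorem Ev_fz (h1 : ∀ l : Fz T n p R, σ l.1.fc l.1.bs = 1) (f : (Lr T n p R → ℤ) → ℂ) :
    Ev (cy Z σ) (qF T n p R) f = ∑' D, (wD Z D : ℂ) * f (gz 0 D) := by
  rw [← Ev_qF (Z := Z) 1 1 f, Ev_eq_Ex, Ev_eq_Ex]
  congr 1
  ext i j
  change σ i.1.fc i.1.bs * _ = sc 1 1 i.1.fc i.1.bs * _
  rw [h1 ⟨i.1, mem_qF.1 i.2⟩, sc_frz 1 1 (mem_qF.1 i.2)]

theorem Fb_lv (r : Finset (Lv T n p R)) (f : (Lr T n p R → ℤ) → ℂ) (D : Fz T n p R → ℤ) :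
    Fb (cy Z σ) (lvs r) f (gz 0 D) = Ev (rt Z σ D) r fun x => f (gz x D) := by
  let e : ↥r ≃ ↥(lvs r) := Equiv.ofBijective (fun i => ⟨i.1.1, mem_lvs.2 ⟨i.1.2, i.2⟩⟩)
    ⟨fun i j h => Subtype.ext (Subtype.ext (congrArg Subtype.val h :)), fun j => by
      obtain ⟨h, k⟩ := mem_lvs.1 j.2
      exact ⟨⟨_, k⟩, rfl⟩⟩
  have k : ∀ z : ↥(lvs r) → ℤ, gz (put r (z ∘ e) 0) D = put (lvs r) z (gz 0 D) := fun z => by
    funext l
    by_cases h : Liv l
    · rw [gz_live _ _ ⟨l, h⟩]
      by_cases y : (⟨l, h⟩ : Lv T n p R) ∈ r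
      · rw [put_pos _ _ y, put_pos _ _ (mem_lvs.2 ⟨h, y⟩)]; rfl
      · rw [put_neg _ _ y, put_neg _ _ fun c => y (mem_lvs.1 c).2, gz_live _ _ ⟨l, h⟩]
    · rw [put_neg _ _ fun c => h (mem_lvs.1 c).1, gz_frz _ _ ⟨l, h⟩, gz_frz _ _ ⟨l, h⟩]
  rw [Ev_eq_Ex]
  refine (Ex_equiv e (fun i j => rfl) (fun z i => ?_) fun z => by rw [k]).symm
  change (pbo Z jk Empty).pr cV (n + 2) (gl2 (toR (put r (z ∘ e) 0)) D) i.1.1 =
    (pbo Z jk Empty).pr cV (n + 2) (toR (put (lvs r) z (gz 0 D))) i.1.1 + 0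
  rw [← k, toR_gz, add_zero]

/-- the labels without displacement -/
abbrev qW (T : Tow) (n p : ℕ) (R : Type) [Fintype R] : Finset (Lr T n p R) :=
  qF T n p R ∪ lvs (rB T n p R)

theorem conv' (hT : T.Ok s N) (hZ : Z.Ok) (h0 : ∀ A o, 0 < σ A o)
    (h1 : ∀ l : Fz T n p R, σ l.1.fc l.1.bs = 1) {f : (Lr T n p R → ℤ) → ℝ} {B : ℝ}
    (hf : ∀ z, |f z| ≤ B) :
    HasSum (fun D => wD Z D * ∑' x, nw (rt Z σ D) (rB T n p R) x * f (gz x D))
      (Ev (cy Z σ) (qW T n p R) fun z => f z).re := by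
  have h : Lo (cy Z σ) := lo_cub hT (ok_pbo hZ _ _) h0
  have hf' : ∀ z, ‖(f z : ℂ)‖ ≤ B := fun z => by rw [Complex.norm_real]; exact hf z
  obtain ⟨K, hK⟩ := h.toTr.Fb_bdd (lvs (rB T n p R)) hf'
  rw [Ev_split h.toTr ((cq_iff.2 cq_qF).cl h) (fun i j hi hj => ?_) (disj_lvs _) hf', Ev_fz h1]
  · simp only [Fb_lv, Ev_real, ← Complex.ofReal_mul, ← Complex.ofReal_tsum, Complex.ofReal_re]
    refine (summ_mul (summable_wD hT hZ) (wD_nonneg Z) (K := K) fun D => ?_).hasSum
    have := hK (gz 0 D)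
    rwa [Fb_lv, Ev_real, Complex.norm_real] at this
  · by_contra e
    obtain ⟨a, b⟩ := mem_lvs.1 hi
    have c := (Gam_ne (right_ne_zero_of_mul e)).1
    have d : Liv j := by unfold Liv lf at a ⊢; rwa [← c]
    refine hj (mem_lvs.2 ⟨d, mem_rB.2 ?_⟩)
    have := mem_rB.1 b
    unfold lf at this ⊢
    rwa [← c]

end conv

/-! ### all labels as sums of labels of the system with all faces -/

theorem img_full {W W₁ : Type} [DecidableEq W] [DecidableEq W₁] {om : W₁ → Option W}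
    {A : Finset W₁} (h : A.card ≤ (img om A).card) :
    A.image om = (img om A).image some ∧ Set.InjOn om A := by
  have h1 : (img om A).image some ⊆ A.image om := image_subset_iff.2 fun w hw => by
    obtain ⟨v, a, b⟩ := mem_img.1 hw
    exact mem_image.2 ⟨v, a, b⟩
  have h2 : ((img om A).image some).card = (img om A).card :=
    card_image_of_injective _ (Option.some_injective W)
  have h3 : (A.image om).card ≤ A.card := card_image_le
  have h4 := eq_of_subset_of_card_le h1 (h3.trans (h.trans h2.ge))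
  have h5 := card_le_card h1
  exact ⟨h4.symm, card_image_iff.1 (le_antisymm h3 (h.trans (h2.ge.trans h5)))⟩

theorem img_of {W W₁ : Type} [DecidableEq W] [DecidableEq W₁] {om : W₁ → Option W}
    {A : Finset W₁} {B : Finset W} (h : A.image om = B.image some) : img om A = B := by
  ext w
  rw [mem_img, ← mem_image, h]
  simp

/-- the old labels of the vertices -/
def rz (z : Lr T n p R → ℤ) (l : Pg T n p R) : ℤ :=
  ∑ k, if k.cd = l.1.cd ∧ k.fc.image om = fo l.1 ∧ l.1.Pure then z k else 0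

theorem rp_rz (x : Lv T n p R → ℤ) (D : Fz T n p R → ℤ) : rp (rmap D (toR x)) = rz (gz x D) := by
  funext l
  have : rmap D (toR x) l.1 = (rz (gz x D) l : ℤ) := by
    simp only [rmap, ← toR_gz, rz, Int.cast_sum, toR_apply, apply_ite (Int.cast : ℤ → ℝ),
      Int.cast_zero]
  rw [rp, this, round_intCast]

theorem fo_pu (l : Pg T n p R) : fo l.1 = l.1.fc.image some := if_pos l.2

theorem rz_congr {z z' : Lr T n p R → ℤ} (h : ∀ k ∈ qW T n p R, z k = z' k) : rz z = rz z' :=
  funext fun l => sum_congr rfl fun k _ => by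
    split_ifs with e
    · refine h k (mem_q.2 fun y => ?_)
      have := mem_image_of_mem om y
      rw [e.2.1, fo_pu] at this
      simp [om] at this
    · rfl

variable (T n p R) (J : Type) [Fintype J] [DecidableEq J]

abbrev LL : Type := Lb T (id : Vt n p R → _) J (n + 2)

abbrev KK : Type := ↥(qW T n p R) ⊕ SL T (cU : Uv n p R → _) (n + 2) × J

variable {T n p R J}

theorem el_inj : Function.Injective (Empty.elim : Empty → J) := fun a => a.elim

abbrev eb (k : Lr T n p R) : LL T n p R J := emb Empty.elim k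

theorem sig_pu (t : J) (z : LL T n p R J → ℤ) (l : Pg T n p R) :
    rz (z ∘ eb) l = sig om t z l.1 := by
  refine Fintype.sum_of_injective _ (emb_inj el_inj) _ _ (fun k hk => if_neg fun e => hk ?_)
    fun k => @if_congr _ _ _ (_) (_) _ _ _ _ ?_ rfl rfl
  · have h1 := l.1.card_eq l.2
    have h2 := card_img om k.fc
    rw [← e.2.1, ← e.1] at h1
    have h3 := img_full (k.card_le.trans h1.ge)
    refine (mem_emb (cl := cV) (o := none) (fun a ha b hb y => h3.2 ha hb ?_)
      (e.2.2.resolve_right fun y => by have := k.card_lt y; omega)).imp fun _ h => h.1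
    have ka := mem_image_of_mem om (mem_coe.1 ha)
    have kb := mem_image_of_mem om (mem_coe.1 hb)
    rw [h3.1, e.2.1] at ka kb
    obtain ⟨u, hu, e1⟩ := mem_image.1 ka
    obtain ⟨v, hv, e2⟩ := mem_image.1 kb
    rw [cV_om, cV_om, ← e1, ← e2] at y
    rw [← e1, ← e2, l.1.2.2.1 hu hv (Option.some_injective _ y)]
  · change _ ↔ k.cd = l.1.cd ∧ img om k.fc = l.1.fc ∧ (k.bs.map _ = none ∨ _)
    rw [fo_pu, bs_none k]
    refine and_congr_right fun e => ⟨fun y => ⟨img_of y.1, Or.inl rfl⟩, fun y => ⟨?_, Or.inl l.2⟩⟩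
    rw [← y.1]
    exact (img_full (by rw [y.1, k.card_eq (bs_none k), l.1.card_eq l.2, e])).1

/-- the labels above a coordinate -/
def rel (a : KK T n p R J) (k : LL T n p R J) : Prop :=
  a.elim (fun i => k = eb i.1) fun a =>
    k.cd = (lb a.1).cd ∧ img om k.fc = (lb a.1).fc ∧ (k.bs = none ∨ k.bs = some a.2)

def SM : Matrix (KK T n p R J) (LL T n p R J) ℤ := of fun a k => if rel a k then 1 else 0

def sm {A : Type} [AddCommMonoid A] (z : LL T n p R J → A) : KK T n p R J → A :=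
  Sum.elim (fun i => z (eb i.1)) fun a => sig om a.2 z (lb a.1)

theorem SM_mul {A : Type} [CommRing A] (z : LL T n p R J → A) :
    SM.map (Int.cast : ℤ → A) *ᵥ z = sm z := by
  funext a
  simp only [SM, mulVec, dotProduct, map_apply, of_apply, Int.cast_ite, Int.cast_one, Int.cast_zero,
    ite_mul, one_mul, zero_mul]
  rcases a with i | a
  · exact (sum_eq_single (eb i.1) (fun k _ hk => if_neg hk) (by simp)).trans (if_pos rfl)
  · exact sum_congr rfl fun k _ => @if_congr _ _ _ (_) (_) _ _ _ _ Iff.rfl rfl rfl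

def sec : KK T n p R J → LL T n p R J :=
  Sum.elim (fun i => eb i.1) fun a => ⟨((lb a.1).cd, (lb a.1).fc.image fr, some a.2), (lb a.1).2.1,
    Set.injOn_id _, card_image_le.trans_lt ((lb a.1).card_lt (lb_bs _))⟩

theorem img_fr (A : Finset (Uv n p R)) : img om (A.image fr) = A :=
  img_of (by rw [image_image]; rfl)

theorem rel_sec (a b : KK T n p R J) : rel a (sec b) ↔ a = b := by
  refine ⟨fun h => ?_, fun h => ?_⟩
  · rcases a with i | a <;> rcases b with j | b
    · exact congrArg _ (Subtype.ext (emb_inj el_inj h).symm)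
    · have : some b.2 = i.1.bs.map Empty.elim := congrArg Lb.bs h
      rw [bs_none] at this
      cases this
    · have h1 : j.1.cd = (lb a.1).cd := h.1
      have h2 : img om j.1.fc = (lb a.1).fc := h.2.1
      have h3 := (lb a.1).card_lt (lb_bs _)
      have h4 : j.1.fc.image om = (img om j.1.fc).image some := by
        ext u
        rcases u with _ | u
        · refine ⟨fun y => ?_, by simp⟩
          obtain ⟨v, hv, e⟩ := mem_image.1 y
          rcases v with _ | v
          exacts [absurd hv (mem_q.1 j.2), by cases e]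
        · simp [mem_img]
      have h5 := congrArg card h4
      rw [card_image_of_injective _ (Option.some_injective _), card_image_of_injOn (s := j.1.fc)
        fun a ha b hb e => j.1.2.2.1 ha hb (by rw [cV_om, e, cV_om]), j.1.card_eq (bs_none _),
        h1, h2] at h5
      omega
    · have h2 : img om ((lb b.1).fc.image fr) = (lb a.1).fc := h.2.1
      rw [img_fr] at h2
      have h3 : some b.2 = some a.2 := h.2.2.resolve_left (Option.some_ne_none _)
      exact congrArg _ (Prod.ext (lb_inj (Lb.ext' h.1 h2 (by rw [lb_bs, lb_bs]))).symm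
        (Option.some_injective _ h3).symm)
  · subst h
    rcases a with i | a
    exacts [rfl, ⟨rfl, img_fr _, Or.inr rfl⟩]

variable (Z) (σ : Finset (Vt n p R) → Option Empty → ℝ)

/-- the centres of the joint system -/
def pk (y : KK T n p R J → ℤ) : KK T n p R J → ℝ :=
  Sum.elim (pq (cy Z σ) _ (y ∘ Sum.inl)) fun a =>
    cs Z (rz (put _ (y ∘ Sum.inl) 0)) (fun i => y (Sum.inr (i, a.2))) a.1

variable {Z σ}

theorem cc_id : Cc (jk : Vt n p R → _) id := fun v v' w h h' => by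
  have k : ∀ v : Vt n p R, jk v = some w → v = fr w := fun v h => by
    rcases v with _ | v | v <;> simp_all [jk, P057RC.fr]
  rw [k v h, k v' h']

theorem pk_sm (hT : T.Ok s N) (hZ : Z.Ok) (z : LL T n p R J → ℤ) :
    pk Z σ (sm z) = sm ((pbo Z jk J).pr id (n + 2) (toR z)) := by
  funext a
  rcases a with i | a
  · refine (add_zero _).trans ((pr_congr hT (ok_pbo hZ _ _) (x' := toR z ∘ eb)
      fun k h _ _ => congrArg Int.cast (put_pos _ _ (mem_q.2 fun y => mem_q.1 i.2 (h y)))).trans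
      (pr_emb el_inj (fun B hB => ?_) _))
    rw [at_pbo Z cc_jk _ (i.1.2.2.1.mono hB), at_pbo Z cc_id _ (Set.injOn_id _), bs_none]
    rfl
  · have e : rz (put (qW T n p R) (sm z ∘ Sum.inl) 0) = fun l => sig om a.2 z l.1 :=
      (rz_congr (z' := z ∘ eb) fun k h => put_pos _ _ h).trans (funext (sig_pu a.2 z))
    refine Eq.trans ?_ (pr_sig (s := ()) hZ (ok_pbo hZ jk J) (fun _ _ => Set.injOn_id _)
      (fun B _ b => ?_) (toR z) (Or.inr (lb_bs _)))
    · rw [← sig_cast, ← gl3_self (sig om a.2 z), ← e]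
      rfl
    · rw [at_pbo Z cc_id _ (Set.injOn_id _)]
      congr 1
      ext u
      simp only [mem_img, ov, mem_filter, mem_univ, true_and]
      refine ⟨fun h => ⟨fr u, fun w e => ?_, rfl⟩, fun ⟨v, h1, h2⟩ => h1 u ?_⟩
      · exact Option.some_injective _ e ▸ h
      · rcases v with _ | v | v <;> simp_all [jk, om]

/-- **moments** -/
theorem mom_cy (hT : T.Ok s N) (hZ : Z.Ok) {γ K Λ η : ℝ} (hγ : 0 < γ) (h0 : ∀ A o, 0 < σ A o)
    (hK : ∀ l ∈ qW T n p R, σ l.fc l.bs ≤ K) {k : ℕ} (hL : T.tw.LF (n + 1) k Λ η)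
    (hk : Fintype.card (Vt n p R) + Fintype.card J ≤ k) (hΛ : (2 * Fintype.card J + 2) *
      (2 * (K + Fintype.card J * (2 * 8 ^ (2 * Fintype.card (Vt n p R))))) ≤ Λ) (K0 : 0 < K) :
    (Ev (cy Z σ) (qW T n p R) fun z => ((gm Z γ (rz z) ^ Fintype.card J : ℝ) : ℂ)).re ≤ 1 + η := by
  have p1 := pd_Gam hT.pd (id : Vt n p R → _) J (n + 2)
  have p2 := posDef_blk (pd_sG (cl := cV) (m := n + 2) hT.pd h0) (qW T n p R)
  have p3 := posDef_bd (J := J) (pd_As (cl := (cU : Uv n p R → _)) (m := n + 2) hT hγ)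
  have c0 : (0 : ℝ) < 2 * Fintype.card J + 2 := by positivity
  have Λ0 : 0 < Λ := lt_of_lt_of_le (by positivity) hΛ
  have hS : ∀ a b : KK T n p R J, SM a (sec b) = (1 : Matrix _ _ ℤ) a b := fun a b =>
    @if_congr _ _ _ (_) (_) _ _ _ _ (rel_sec a b) rfl rfl
  have hlv : ∀ (a : KK T n p R J) k, SM a k ≠ 0 → T.lv k.cd ≤ T.lv (sec a).cd := fun a k h => by
    have h1 : rel a k := by_contra fun e => h (if_neg e)
    rcases a with i | a
    exacts [(congrArg (T.lv ·.cd) h1).le, (congrArg T.lv h1.1).le]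
  have hp : ∀ z : LL T n p R J → ℤ, pk Z σ (SM *ᵥ z) =
      mR SM *ᵥ (pbo Z jk J).pr id (n + 2) (toR z) := fun z => by
    rw [mR, SM_mul, ← pk_sm hT hZ, ← SM_mul]; rfl
  have t0 := tri_pr (cl := id) (m := n + 2) hT (ok_pbo hZ jk J)
  have h1 := ((cub_all hT (ok_pbo hZ jk J) le_rfl hL hk Λ0).transfer t0 (p1.smul (div_pos Λ0 c0))
    sec SM hS hlv hp (Γ' := fromBlocks _ 0 0 (blockDiagonal fun _ => As T cU (n + 2) γ))
    fun v => ?_).self (posDef_blocks p2 p3) fun _ => le_rfl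
  · have h2 := P057CO.Ex_blocks p2 p3 (tri_transfer t0 hS hlv hp) (p1 := pq (cy Z σ) _)
      (p2 := fun x u a => cs Z (rz (put _ x 0)) (fun i => u (i, a.2)) a.1) (fun _ _ => rfl)
      (f := fun _ => 1) (C := 1) (by simp)
    have h3 : ∀ w, ms (blockDiagonal fun _ : J => As T cU (n + 2) γ)
        (fun u a => cs Z w (fun i => u (i, a.2)) a.1) = ((gm Z γ w ^ Fintype.card J : ℝ) : ℂ) :=
      fun w => by
        have := Ex_pi (J := J) (fun _ => tri_cs hT hZ w) (pd_As hT hγ) (f := fun _ _ => 1) (C := 1)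
          (by simp)
        simpa [Ex_one, gm_ms hT hZ hγ] using this
    simp only [Ex_one, h3] at h2
    rw [Ev_eq_Ex]
    exact (congrArg Complex.re h2).symm.trans_le (by
      rw [Complex.ofReal_re]; linarith [(abs_le.1 h1).2])
  · have q0 := qq_nonneg p1.posSemidef v
    have a1 : qq (blk (sG T cV Empty (n + 2) σ) (qW T n p R)) (sm v ∘ Sum.inl) ≤
        K * qq (Gam T id J (n + 2)) v := by
      refine (qq_blk_mono (b := fun _ _ => K) hT.pd _ fun l _ => hK _ l.2).trans ?_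
      rw [qq_blk_const]
      refine mul_le_mul_of_nonneg_left (le_trans ?_ (qq_emb (cl := cV) hT.pd el_inj v)) K0.le
      refine (qq_msk _ _ (v ∘ eb)).symm.trans_le ((qq_msk_le (pd_Gam hT.pd _ _ _) (fun i j hi hj =>
        by_contra fun e => hj (mem_q.2 ((Gam_ne e).1 ▸ mem_q.1 hi))) (subset_univ _) _).trans_eq ?_)
      exact congrArg _ (funext fun i => msk_pos _ (mem_univ i))
    have a2 : ∀ t : J, qq (As T cU (n + 2) γ) (fun b => (sm v ∘ Sum.inr) (b, t)) ≤
        2 * 8 ^ (2 * Fintype.card (Vt n p R)) * qq (Gam T id J (n + 2)) v := fun t => by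
      refine (qq_As hT hγ (sig om t v)).trans ?_
      rw [mul_assoc]
      refine mul_le_mul_of_nonneg_left ((qq_sig hT.pd hT.blk t v).trans
        (mul_le_mul_of_nonneg_right (pow_le_pow_right₀ (by norm_num) ?_) q0)) zero_le_two
      simp only [Fintype.card_option, Fintype.card_sum]
      omega
    rw [mR, SM_mul, qq_blocks, qq_bd, qq_smul_mat]
    have a3 := sum_le_card_nsmul univ _ _ fun t _ => a2 t
    rw [card_univ, nsmul_eq_mul] at a3
    refine le_trans ?_ (mul_le_mul_of_nonneg_right ((le_div_iff₀' c0).2 hΛ) q0)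
    linarith

end

end Vale.Agent.P057DI
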