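import Vale.Agent.P057EN.Prd
import Vale.Agent.P057EN.Top
import Vale.Agent.P057XL.Base
import Vale.Agent.P057AD.Flat

/-!
Labels of a cube system as sums of labels of a finer cube system.
-/

set_option linter.all false

open Matrix Finset
open Vale.Agent.P267.H775 Vale.Agent.P057G Vale.Agent.P057PC Vale.Agent.P057TP Vale.Agent.P057GH
open Vale.Agent.P057EN Vale.Agent.P057XL
open Vale.Agent.P057DP (img mem_img)

namespace Vale.Agent.P057DI

noncomputable section

open Classical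

variable {T : Tow} {C C₁ W W₁ S S₁ : Type} [Fintype W] [DecidableEq W] [Fintype W₁]
  [DecidableEq W₁] [Fintype S] [Fintype S₁] {cl : W → C} {cl₁ : W₁ → C₁} {m : ℕ}
  {om : W₁ → Option W}

/-- all vertices that lie over the face `B` or over no vertex -/
def ov (om : W₁ → Option W) (B : Finset W) : Finset W₁ :=
  univ.filter fun x => ∀ w, om x = some w → w ∈ B

theorem sub_ov {A : Finset W₁} {B : Finset W} : A ⊆ ov om B ↔ img om A ⊆ B := by
  simp only [ov, subset_iff, mem_filter, mem_univ, true_and, mem_img]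
  exact ⟨fun h w ⟨x, a, b⟩ => h a w b, fun h x a w b => h ⟨x, a, b⟩⟩

theorem card_img (om : W₁ → Option W) (A : Finset W₁) : (img om A).card ≤ A.card := by
  refine card_biUnion_le.trans ?_
  rw [card_eq_sum_ones A]
  exact sum_le_sum fun x _ => by cases om x <;> simp

/-- the sum of the labels over `l` -/
def sig {R : Type} [AddCommMonoid R] (om : W₁ → Option W) (t : S₁) (z : Lb T cl₁ S₁ m → R)
    (l : Lb T cl S m) : R :=
  ∑ k, if k.cd = l.cd ∧ img om k.fc = l.fc ∧ (k.bs = none ∨ k.bs = some t) then z k else 0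

theorem tot_sig {R : Type} [AddCommMonoid R] (t : S₁) (z : Lb T cl₁ S₁ m → R) (s : S) (a : T.ι)
    {A : Finset W} (hA : Set.InjOn cl A) : tot (cl := cl) (sig om t z) s a A =
      ∑ k, if k.cd = a ∧ img om k.fc = A ∧ (k.bs = none ∨ k.bs = some t) then z k else 0 := by
  by_cases h : ∃ l : Lb T cl S m, l.cd = a ∧ l.fc = A ∧ (l.bs = none ∨ l.bs = some s)
  · obtain ⟨l, rfl, rfl, h3⟩ := h
    rw [tot_lab _ h3]; rfl
  · rw [tot_none _ fun l h1 h2 h3 => (h ⟨l, h1, h2, h3⟩).elim]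
    refine (sum_eq_zero fun k _ => if_neg fun e => h ?_).symm
    obtain ⟨rfl, rfl, -⟩ := e
    exact exists_lab s k.2.1 hA ((card_img om _).trans k.card_le)

theorem pt_sig {R : Type} [AddCommMonoid R] (t : S₁) (z : Lb T cl₁ S₁ m → R) (s : S)
    {B : Finset W} (hB : Set.InjOn cl B) :
    pt (cl := cl) (sig om t z) (some s) B = pt z (some t) (ov om B) := by
  funext a
  rw [pt_tot, sum_congr rfl fun A hA => tot_sig t z s a (hB.mono (coe_subset.2 (mem_powerset.1 hA))),
    sum_comm]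
  refine sum_congr rfl fun k _ => ?_
  by_cases h : img om k.fc ⊆ B
  · rw [sum_eq_single_of_mem _ (mem_powerset.2 h) fun A _ hA => if_neg fun e => hA e.2.1.symm]
    simp [sub_ov, h]
  · rw [if_neg fun e => h (sub_ov.1 e.2.1)]
    exact sum_eq_zero fun A hA => if_neg fun e => h (by rw [e.2.1]; exact mem_powerset.1 hA)

theorem sig_dlt {R : Type} [CommRing R] (t : S₁) (z : Lb T cl₁ S₁ m → R) {s : S} {l : Lb T cl S m}
    (hl : l.bs = none ∨ l.bs = some s) :
    sig om t z l = dlt (fun B => pt z (some t) (ov om B) l.cd) l.fc := by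
  rw [← tot_lab (sig om t z) hl, ← dlt_tot]
  exact dlt_congr fun B hB => by rw [pt_sig t z s (l.2.2.1.mono hB)]

/-- the sums commute with the centres -/
theorem pr_sig {Z : Sys T W S} {Z₁ : Sys T W₁ S₁} (h : Z.Ok) (h₁ : Z₁.Ok) {s : S} {t : S₁}
    (h1 : ∀ B : Finset W, Set.InjOn cl B → Set.InjOn cl₁ (ov om B))
    (h3 : ∀ B : Finset W, Set.InjOn cl B → ∀ a,
      Z.fam.at' (some s) B a = Z₁.fam.at' (some t) (ov om B) a)
    (x : Lb T cl₁ S₁ m → ℝ) {l : Lb T cl S m} (hl : l.bs = none ∨ l.bs = some s) :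
    Z.pr cl m (sig om t x) l = sig om t (Z₁.pr cl₁ m x) l := by
  rw [sig_dlt t _ hl]
  exact pr_map h h₁ hl (ov om) (fun B hB => h1 B (l.2.2.1.mono hB))
    (fun B hB => pt_sig t x s (l.2.2.1.mono hB)) fun B hB => h3 B (l.2.2.1.mono hB) _

theorem sig_cast (t : S₁) (z : Lb T cl₁ S₁ m → ℤ) :
    toR (sig om t z : Lb T cl S m → ℤ) = sig om t (toR z) := by
  funext l
  simp only [sig, Int.cast_sum, toR_apply, apply_ite (Int.cast : ℤ → ℝ), Int.cast_zero]

/-- vectors given face by face -/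
theorem qq_fc (hG : T.G.PosDef) (hb : ∀ a b, T.lv a ≠ T.lv b → T.G a b = 0)
    (g : Finset W → Option S → T.ι → ℝ) {b : ℝ} (h0 : 0 ≤ b)
    (h : ∀ l : Lb T cl S m, qq T.G (g l.fc l.bs) ≤ b) :
    qq (Gam T cl S m) (fun l : Lb T cl S m => g l.fc l.bs l.cd) ≤
      2 ^ Fintype.card W * (Fintype.card S + 1) * b := by
  rw [qq_cpt]
  refine (sum_le_card_nsmul _ _ b fun φ _ => ?_).trans_eq (by simp [mul_assoc])
  by_cases k : ∃ l : Lb T cl S m, (l.fc, l.bs) = φ
  · obtain ⟨l, rfl⟩ := k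
    refine le_of_eq_of_le (congrArg _ (funext fun a => ?_)) ((P057AD.qq_mask_le hG hb
      (fun e => e < m ∧ l.bs.elim (l.fc.card = e) fun _ => l.fc.card < e) _).trans (h l))
    split_ifs with e
    · obtain ⟨k, h1, h2, h3⟩ : ∃ k : Lb T cl S m, k.cd = a ∧ k.fc = l.fc ∧ k.bs = l.bs :=
        ⟨⟨(a, l.fc, l.bs), e.1, l.2.2.1, e.2⟩, rfl, rfl, rfl⟩
      rw [cpt, sum_eq_single k (fun l' _ hl => ?_) (by simp), if_pos ⟨h1, by rw [h2, h3]⟩, h1, h2, h3]
      exact if_neg fun y => hl (Lb.ext' (y.1.trans h1.symm) ((congrArg (·.1) y.2).trans h2.symm)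
        ((congrArg (·.2) y.2).trans h3.symm))
    · refine sum_eq_zero fun l' _ => if_neg fun k => e ?_
      have h1 : l'.fc = l.fc := congrArg (·.1) k.2
      have h2 : l'.bs = l.bs := congrArg (·.2) k.2
      rw [← k.1, ← h1, ← h2]
      exact ⟨l'.2.1, l'.2.2.2⟩
  · rw [show cpt (fun l : Lb T cl S m => g l.fc l.bs l.cd) φ = 0 from funext fun a =>
      sum_eq_zero fun l _ => if_neg fun e => k ⟨l, e.2⟩, qq_zero]
    exact h0

theorem qq_sig (hG : T.G.PosDef) (hb : ∀ a b, T.lv a ≠ T.lv b → T.G a b = 0) (t : S₁)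
    (v : Lb T cl₁ S₁ m → ℝ) : qq (Gam T cl Unit m) (sig om t v) ≤
      8 ^ (Fintype.card W + Fintype.card W₁ + 1) * qq (Gam T cl₁ S₁ m) v := by
  have p1 := pd_Gam hG cl₁ S₁ m
  have e : (sig om t v : Lb T cl Unit m → ℝ) = fun l =>
      (fun A (_ : Option Unit) a => dlt (fun B => pt v (some t) (ov om B) a) A) l.fc l.bs l.cd :=
    funext fun l => sig_dlt t v (s := ()) (by cases l.bs <;> simp)
  have q0 := qq_nonneg p1.posSemidef v
  rw [e]
  refine (qq_fc hG hb (fun A _ a => dlt (fun B => pt v (some t) (ov om B) a) A) (b := (2 ^ Fintype.card W * (2 ^ (Fintype.card W₁ + 1) *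
    nq (Gam T cl₁ S₁ m) v)) ^ 2) (sq_nonneg _) fun l => qq_le hG ((nq_dlt hG fun B _ =>
      (nq_pt hG v _ _).trans (mul_le_mul_of_nonneg_right (pow_le_pow_right₀ one_le_two
        (Nat.succ_le_succ (card_le_univ _))) (nq_nonneg _))).trans (mul_le_mul_of_nonneg_right
      (pow_le_pow_right₀ one_le_two (card_le_univ _)) (mul_nonneg (by positivity)
        (nq_nonneg _))))).trans ?_
  rw [mul_pow, mul_pow, nq_sq p1, ← mul_assoc, ← mul_assoc]
  refine mul_le_mul_of_nonneg_right ?_ q0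
  have h8 : (8 : ℝ) = 2 ^ 3 := by norm_num
  rw [h8, Fintype.card_unit, Nat.cast_one, one_add_one_eq_two, ← pow_mul, ← pow_mul, ← pow_mul,
    ← pow_succ, ← pow_add, ← pow_add]
  exact pow_le_pow_right₀ one_le_two (by omega)

/-! ### all faces -/

/-- a label as a label of the system with all faces -/
def emb (κ : S → S₁) (l : Lb T cl S m) : Lb T (id : W → W) S₁ m :=
  ⟨(l.cd, l.fc, l.bs.map κ), l.2.1, Set.injOn_id _, by
    have := l.2.2.2
    change l.bs.elim _ _ at this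
    cases h : l.bs <;> rw [h] at this <;> exact this⟩

theorem emb_inj {κ : S → S₁} (hκ : κ.Injective) :
    (emb κ : Lb T cl S m → _).Injective := fun l l' e =>
  lb_ext (congrArg Lb.cd e :) (congrArg Lb.fc e :) (Option.map_injective hκ (congrArg Lb.bs e))

theorem mem_emb {κ : S → S₁} {k : Lb T (id : W → W) S₁ m} (h1 : Set.InjOn cl k.fc)
    {o : Option S} (h2 : k.bs = o.map κ) : ∃ l : Lb T cl S m, emb κ l = k ∧ l.bs = o := by
  refine ⟨⟨(k.cd, k.fc, o), k.2.1, h1, ?_⟩, lb_ext rfl rfl h2.symm, rfl⟩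
  have := k.2.2.2
  change k.bs.elim _ _ at this
  rw [h2] at this
  cases o <;> exact this

theorem pt_emb {κ : S → S₁} (hκ : κ.Injective) {R : Type} [AddCommMonoid R]
    (x : Lb T (id : W → W) S₁ m → R) (o : Option S) {B : Finset W} (hB : Set.InjOn cl B) :
    pt (cl := cl) (x ∘ emb κ) o B = pt x (o.map κ) B := by
  funext a
  refine Fintype.sum_of_injective _ (emb_inj hκ) _ _ (fun k hk => if_neg fun e => hk ?_) fun l => ?_
  · rcases e.2.2 with h | h
    · exact (mem_emb (hB.mono e.2.1) (o := none) h).imp fun _ h => h.1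
    · exact (mem_emb (hB.mono e.2.1) h).imp fun _ h => h.1
  · refine @if_congr _ _ _ (_) (_) _ _ _ _ ?_ rfl rfl
    change _ ↔ l.cd = a ∧ l.fc ⊆ B ∧ (l.bs.map κ = none ∨ l.bs.map κ = o.map κ)
    rw [Option.map_eq_none_iff, (Option.map_injective hκ).eq_iff]

theorem pr_emb {κ : S → S₁} (hκ : κ.Injective) {Z : Sys T W S} {Z₁ : Sys T W S₁}
    {l : Lb T cl S m} (h : ∀ B ⊆ l.fc, Z.fam.at' l.bs B l.cd = Z₁.fam.at' (l.bs.map κ) B l.cd)
    (x : Lb T (id : W → W) S₁ m → ℝ) : Z.pr cl m (x ∘ emb κ) l = Z₁.pr id m x (emb κ l) :=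
  sum_congr rfl fun B hB => by
    rw [h B (mem_powerset.1 hB), pt_emb hκ x _ (l.2.2.1.mono (mem_powerset.1 hB))]
    rfl

theorem qq_emb (hG : T.G.PosDef) {κ : S → S₁} (hκ : κ.Injective)
    (v : Lb T (id : W → W) S₁ m → ℝ) :
    qq (Gam T cl S m) (v ∘ emb κ) ≤ qq (Gam T (id : W → W) S₁ m) v := by
  rw [qq_cpt, qq_cpt]
  have hi : Function.Injective (Prod.map id (Option.map κ) :
      Finset W × Option S → Finset W × Option S₁) :=
    Function.injective_id.prodMap (Option.map_injective hκ)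
  refine le_trans (sum_le_sum fun φ _ => ?_) ((sum_image (s := univ)
    (f := fun φ => qq T.G (cpt v φ)) fun _ _ _ _ e => hi e).symm.trans_le
    (sum_le_sum_of_subset_of_nonneg (subset_univ _) fun _ _ _ => qq_nonneg hG.posSemidef _))
  by_cases k : Set.InjOn cl φ.1
  · refine le_of_eq (congrArg _ (funext fun a => ?_))
    refine Fintype.sum_of_injective _ (emb_inj hκ) _ _ (fun l hl => if_neg fun e => hl ?_)
      fun l => @if_congr _ _ _ (_) (_) _ _ _ _ (and_congr Iff.rfl hi.eq_iff.symm) rfl rfl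
    have h1 : l.fc = φ.1 := congrArg (·.1) e.2
    exact (mem_emb (h1 ▸ k) (congrArg (·.2) e.2)).imp fun _ h => h.1
  · rw [show cpt (v ∘ emb κ : Lb T cl S m → ℝ) φ = 0 from funext fun a =>
      sum_eq_zero fun l _ => if_neg fun e => k (by rw [← e.2]; exact l.2.2.1), qq_zero]
    exact qq_nonneg hG.posSemidef _

end

end Vale.Agent.P057DI
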